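import Vale.Agent.P054.T2.H794.AData
import Vale.Agent.P054.T2.H930.GlueB1
import Vale.Agent.P054.T2.H428.EdgeB
import Vale.Agent.P054.T2.H686.Setup
import Vale.Agent.P054.T2.H441.ATriple

set_option autoImplicit false
set_option linter.all false

/-!
# P054 / T2: the leaves of section B over `AData` (literal statements)

Sets: `E' ⊇ E1` (exact leaf ranks) `⊇ E2` (hat GOOD relative to `E1`, vertical independence)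
`⊇ E3` (minus exceptional sets of leaf GOOD, [DOM]/[STAB]) `⊇ Eg` (minus the [G*] sets).
All exceptional sets satisfy `64 * Y.card ≤ E'.card`.
-/

namespace Vale.Agent.P054.T2.H794

open Finset MvPolynomial Module
open Vale.Agent.P054.T2.SecC
open Vale.Agent.P054.T2.H307 (FI Ed xF xL xH1 xH2 xT wB van fib)
open Vale.Agent.P054.T2.H580 (Vw kap)
open Vale.Agent.P054.T2.H686 (mu meet Qf Crd Gm Ez)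
open Vale.Agent.P054.T2.H930 (ZData germ grad Pt edgePt hatPt)

variable {n : ℕ}

/-- the concrete form of the systems of `Z` (output of [ZPACK], input of [DOM], [STAB], [G*]) -/
structure ZP (b k₀ i₀ : ℕ) (E' : Finset (Ed n ℝ)) (v : FI × ℕ → ℕ) {E1 E2 : Finset (ZZ n × ZZ n)}
    {c₀ c₁ c₂ σ₁ σ₂ : ℕ}
    (Z : ZData ℝ n E' E1 E2 (wB (b ^ k₀)) (b ^ (k₀ + i₀)) c₀ c₁ c₂ σ₁ σ₂) : Prop where
  hc₀ : c₀ = v (FI.F, k₀)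
  hH1 : c₀ + c₁ = v (FI.H1 k₀, i₀)
  hH2 : c₀ + c₂ = v (FI.H2 k₀, i₀)
  hσ₁ : σ₁ = n - v (FI.L1, k₀)
  hσ₂ : σ₂ = n - v (FI.L2, k₀)
  f_van : ∀ j : Fin c₀, Z.f j ∈ van xF E'
    (restrictTotalDegree (Crd n) ℝ (b ^ kap (k₀ + 1) (fun i => v (FI.F, i)) (j : ℕ)))
  h_van : ∀ j : Fin c₁, Z.h j ∈ van xH1 E'
    (Vw ℝ (wB (b ^ k₀)) (b ^ (k₀ + kap (i₀ + 1) (fun i => v (FI.H1 k₀, i)) (c₀ + j))))
  h'_van : ∀ j : Fin c₂, Z.h' j ∈ van xH2 E'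
    (Vw ℝ (wB (b ^ k₀)) (b ^ (k₀ + kap (i₀ + 1) (fun i => v (FI.H2 k₀, i)) (c₀ + j))))
  f_ind : ∀ e ∈ E', LinearIndependent ℝ (fun j => grad (xF e) (Z.f j))
  H1_ind : ∀ e ∈ E', LinearIndependent ℝ
    (fun j => grad (xH1 e) (Fin.append (fun i => rename Sum.inl (Z.f i)) Z.h j))
  H2_ind : ∀ e ∈ E', LinearIndependent ℝ
    (fun j => grad (xH2 e) (Fin.append (fun i => rename Sum.inl (Z.f i)) Z.h' j))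

/-- a property of `Z` for all data -/
def ForZ (n : ℕ) (Φ : (b k₀ i₀ : ℕ) → (E' : Finset (Ed n ℝ)) → (FI × ℕ → ℕ) →
    (E1 E2 : Finset (ZZ n × ZZ n)) → (c₀ c₁ c₂ σ₁ σ₂ v₁ v₂ : ℕ) →
    ZData ℝ n E' E1 E2 (wB (b ^ k₀)) (b ^ (k₀ + i₀)) c₀ c₁ c₂ σ₁ σ₂ → Prop) : Prop :=
  ForAData n fun k β C₁ L K₀ q C k₀ i₀ i₁ Wg E' v =>
    ∀ (E1 E2 : Finset (ZZ n × ZZ n)) (c₀ c₁ c₂ σ₁ σ₂ v₁ v₂ : ℕ)
      (Z : ZData ℝ n E' E1 E2 (wB ((β ^ L) ^ k₀)) ((β ^ L) ^ (k₀ + i₀)) c₀ c₁ c₂ σ₁ σ₂),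
      ZP (β ^ L) k₀ i₀ E' v Z → c₁ + v₁ = 2 * (n + 1) → c₂ + v₂ = 2 * (n + 1) →
      E'.card ≤ 2 * E2.card →
      Φ (β ^ L) k₀ i₀ E' v E1 E2 c₀ c₁ c₂ σ₁ σ₂ v₁ v₂ Z

/-- **(B-a) [ZPACK]** -/
def ZPackS (n : ℕ) : Prop := ForAData n fun k β C₁ L K₀ q C k₀ i₀ i₁ Wg E' v =>
  ∃ (E1 E2 : Finset (ZZ n × ZZ n)) (c₀ c₁ c₂ σ₁ σ₂ v₁ v₂ : ℕ)
    (Z : ZData ℝ n E' E1 E2 (wB ((β ^ L) ^ k₀)) ((β ^ L) ^ (k₀ + i₀)) c₀ c₁ c₂ σ₁ σ₂),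
    ZP (β ^ L) k₀ i₀ E' v Z ∧ c₁ + v₁ = 2 * (n + 1) ∧ c₂ + v₂ = 2 * (n + 1) ∧
    4 * (E' \ E2).card ≤ E'.card

/-- **(B-b) [LEAFDATA]**, both sides: `f₁ s` on the leaves of `s`, `f₂ r` on the leaves of `r` -/
def LeafS (n : ℕ) : Prop := ForAData n fun k β C₁ L K₀ q C k₀ i₀ i₁ Wg E' v =>
  (∃ f₁ : ZZ n → Fin (n - (n - v (FI.L1, k₀))) → MvPolynomial (Fin n) ℝ,
    (∀ s i, (f₁ s i).totalDegree ≤ (β ^ L) ^ k₀) ∧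
    (∀ e ∈ E', ∀ i, eval (mu e.1 e.2) (f₁ e.1 i) = 0) ∧
    (∀ e ∈ E', LinearIndependent ℝ (fun i => grad (mu e.1 e.2) (f₁ e.1 i))) ∧
    ∃ Y ⊆ E', 64 * Y.card ≤ E'.card ∧ ∀ e ∈ E', e ∉ Y → ∀ G : MvPolynomial (Fin n) ℝ,
      G.totalDegree ≤ (β ^ L) ^ (k₀ + i₀) →
      (∀ e' ∈ E', e'.1 = e.1 → eval (mu e'.1 e'.2) G = 0) → G ∈ germ (mu e.1 e.2) (f₁ e.1)) ∧
  (∃ f₂ : ZZ n → Fin (n - (n - v (FI.L2, k₀))) → MvPolynomial (Fin n) ℝ,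
    (∀ s i, (f₂ s i).totalDegree ≤ (β ^ L) ^ k₀) ∧
    (∀ e ∈ E', ∀ i, eval (mu e.1 e.2) (f₂ e.2 i) = 0) ∧
    (∀ e ∈ E', LinearIndependent ℝ (fun i => grad (mu e.1 e.2) (f₂ e.2 i))) ∧
    ∃ Y ⊆ E', 64 * Y.card ≤ E'.card ∧ ∀ e ∈ E', e ∉ Y → ∀ G : MvPolynomial (Fin n) ℝ,
      G.totalDegree ≤ (β ^ L) ^ (k₀ + i₀) →
      (∀ e' ∈ E', e'.2 = e.2 → eval (mu e'.1 e'.2) G = 0) → G ∈ germ (mu e.1 e.2) (f₂ e.2))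

/-- **(B-d) [DOM-GLUE]**: for all but few edges there is a system `Ft` of the triple family, good
relative to `E'`, whose prime dominates exactly the prime of the hat. `j = 1`: hat `(g, s)`,
`j = 2`: hat `(g, r)`. -/
def DomS (n : ℕ) : Prop := ForZ n fun b k₀ i₀ E' v E1 E2 c₀ c₁ c₂ σ₁ σ₂ v₁ v₂ Z =>
  (∃ (c : ℕ) (Ft : Fin c → MvPolynomial (Crd n ⊕ (Pt n ⊕ Pt n)) ℝ),
    (∀ i, Ft i ∈ van xT E' (Vw ℝ (wB (b ^ k₀)) (b ^ (k₀ + i₀)))) ∧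
    (∀ e ∈ E', LinearIndependent ℝ (fun i => grad (xT e) (Ft i))) ∧
    ∃ Y ⊆ E', 64 * Y.card ≤ E'.card ∧ ∀ e ∈ E2, e ∉ Y →
      (∀ F ∈ Vw ℝ (wB (b ^ k₀)) (b ^ (k₀ + i₀) + 3 * b ^ k₀),
        (∀ e' ∈ E', eval (edgePt e'.1 e'.2) F = 0) → F ∈ germ (edgePt e.1 e.2) Ft) ∧
      (germ (edgePt e.1 e.2) Ft).comap (rename (R := ℝ) (H930.j1 n)) ≤
        germ (hatPt e.1 (mu e.1 e.2)) (Fin.append (fun i => rename Sum.inl (Z.f i)) Z.h)) ∧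
  (∃ (c : ℕ) (Ft : Fin c → MvPolynomial (Crd n ⊕ (Pt n ⊕ Pt n)) ℝ),
    (∀ i, Ft i ∈ van xT E' (Vw ℝ (wB (b ^ k₀)) (b ^ (k₀ + i₀)))) ∧
    (∀ e ∈ E', LinearIndependent ℝ (fun i => grad (xT e) (Ft i))) ∧
    ∃ Y ⊆ E', 64 * Y.card ≤ E'.card ∧ ∀ e ∈ E2, e ∉ Y →
      (∀ F ∈ Vw ℝ (wB (b ^ k₀)) (b ^ (k₀ + i₀) + 3 * b ^ k₀),
        (∀ e' ∈ E', eval (edgePt e'.1 e'.2) F = 0) → F ∈ germ (edgePt e.1 e.2) Ft) ∧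
      (germ (edgePt e.1 e.2) Ft).comap (rename (R := ℝ) (H930.j2 n)) ≤
        germ (hatPt e.2 (mu e.2 e.1)) (Fin.append (fun i => rename Sum.inl (Z.f i)) Z.h'))

/-- **(B-e) [G*]**: for every dense subset `A ⊆ E2` and every exceptional set `Bd ⊆ A` whose edges
have class polynomials of the hat `(g, s)` (`j = 1`) resp. `(g, r)` (`j = 2`) of level `2 * b ^ k₀`
(classes = primes of `Z⁺`, inside `Bd`): `Bd` is small. -/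
def GStarS (n : ℕ) : Prop := ForZ n fun b k₀ i₀ E' v E1 E2 c₀ c₁ c₂ σ₁ σ₂ v₁ v₂ Z =>
  (∀ Bd ⊆ E2, (∀ e ∈ Bd, ∃ φ ∈ Vw ℝ (wB (b ^ k₀)) (2 * b ^ k₀),
      (∀ e' ∈ Bd, germ (edgePt e'.1 e'.2) Z.F = germ (edgePt e.1 e.2) Z.F →
        eval (xH1 e') φ = 0) ∧
      rename (H930.j1 n) φ ∉ germ (edgePt e.1 e.2) Z.F) → 64 * Bd.card ≤ E'.card) ∧
  (∀ Bd ⊆ E2, (∀ e ∈ Bd, ∃ φ ∈ Vw ℝ (wB (b ^ k₀)) (2 * b ^ k₀),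
      (∀ e' ∈ Bd, germ (edgePt e'.1 e'.2) Z.F = germ (edgePt e.1 e.2) Z.F →
        eval (xH2 e') φ = 0) ∧
      rename (H930.j2 n) φ ∉ germ (edgePt e.1 e.2) Z.F) → 64 * Bd.card ≤ E'.card)

end Vale.Agent.P054.T2.H794
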