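import Vale.Agent.P054.T2.H794.Leaves
import Vale.Agent.P054.T2.H819.ZX
import Vale.Agent.P054.T2.H686.Assembly

set_option autoImplicit false
set_option linter.all false

/-!
# P054 / T2: statement of section B over `AData`
-/

namespace Vale.Agent.P054.T2.H794

open Finset MvPolynomial Module
open Vale.Agent.P054.T2.SecC
open Vale.Agent.P054.T2.H307 (FI Ed xF xL xH1 xH2 xT wB van fib)
open Vale.Agent.P054.T2.H580 (Vw kap)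
open Vale.Agent.P054.T2.H686

variable {n : ℕ}

/-- **Section B** (the consumer is the glue of `MainAB`) -/
def SecB (n : ℕ) : Prop := ForAData n fun k β C₁ L K₀ q C k₀ i₀ i₁ Wg E' v =>
  ∀ (t : ℕ) (P : Finset (E n)) (B : E n ≃ₗᵢ[ℝ] E n) (G : ℕ → ℕ), Gm P B →
    (dists P).card ≤ t → IsoB n P G → E' ⊆ Ez P B β → (Ez P B β).card ≤ β ^ L * E'.card →
    ABMain n P B β (β ^ L) 2 i₀ (4 * (n + 1)) (H819.Cx n) t ((β ^ L) ^ k₀) G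

/-- conjunction of two properties for all `AData` -/
theorem ForAData.and {Φ Ψ : (k β C₁ L K₀ q C k₀ i₀ i₁ Wg : ℕ) → Finset (Ed n ℝ) →
    (FI × ℕ → ℕ) → Prop} (h1 : ForAData n Φ) (h2 : ForAData n Ψ) :
    ForAData n fun k β C₁ L K₀ q C k₀ i₀ i₁ Wg E' v =>
      Φ k β C₁ L K₀ q C k₀ i₀ i₁ Wg E' v ∧ Ψ k β C₁ L K₀ q C k₀ i₀ i₁ Wg E' v := by
  obtain ⟨C1, q1, h1⟩ := h1
  obtain ⟨C2, q2, h2⟩ := h2
  refine ⟨max C1 C2, max q1 q2, fun C hC q hq L K₀ => ?_⟩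
  obtain ⟨b1, hb1⟩ := h1 C ((le_max_left _ _).trans hC) q ((le_max_left _ _).trans hq) L K₀
  obtain ⟨b2, hb2⟩ := h2 C ((le_max_right _ _).trans hC) q ((le_max_right _ _).trans hq) L K₀
  refine ⟨max b1 b2, fun β hβ k C₁ k₀ i₀ i₁ Wg E' v A => ⟨?_, ?_⟩⟩
  · exact hb1 β ((le_max_left _ _).trans hβ) k C₁ k₀ i₀ i₁ Wg E' v A
  · exact hb2 β ((le_max_right _ _).trans hβ) k C₁ k₀ i₀ i₁ Wg E' v A

/-- consequence, with `AData` and any lower bounds for `C, q` (by `n`) and `β` -/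
theorem ForAData.imp {Φ Ψ : (k β C₁ L K₀ q C k₀ i₀ i₁ Wg : ℕ) → Finset (Ed n ℝ) →
    (FI × ℕ → ℕ) → Prop} (h1 : ForAData n Φ) (C₂ q₂ : ℕ) (bb : (C q L K₀ : ℕ) → ℕ)
    (h : ∀ (k β C₁ L K₀ q C k₀ i₀ i₁ Wg : ℕ) (E' : Finset (Ed n ℝ)) (v : FI × ℕ → ℕ),
      C₂ ≤ C → q₂ ≤ q → bb C q L K₀ ≤ β → AData n k β C₁ L K₀ q C k₀ i₀ i₁ Wg E' v →
      Φ k β C₁ L K₀ q C k₀ i₀ i₁ Wg E' v → Ψ k β C₁ L K₀ q C k₀ i₀ i₁ Wg E' v) :
    ForAData n Ψ := by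
  obtain ⟨C1, q1, h1⟩ := h1
  refine ⟨max C1 C₂, max q1 q₂, fun C hC q hq L K₀ => ?_⟩
  obtain ⟨b1, hb1⟩ := h1 C ((le_max_left _ _).trans hC) q ((le_max_left _ _).trans hq) L K₀
  refine ⟨max b1 (bb C q L K₀), fun β hβ k C₁ k₀ i₀ i₁ Wg E' v A => ?_⟩
  exact h k β C₁ L K₀ q C k₀ i₀ i₁ Wg E' v ((le_max_right _ _).trans hC)
    ((le_max_right _ _).trans hq) ((le_max_right _ _).trans hβ) A
    (hb1 β ((le_max_left _ _).trans hβ) k C₁ k₀ i₀ i₁ Wg E' v A)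

end Vale.Agent.P054.T2.H794
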