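import Vale.Agent.P054.T2.H307.Fam
import Vale.Agent.P054.T2.H580.UniHat
import Vale.Agent.P054.T2.H428.SecC

set_option autoImplicit false
set_option linter.all false

/-!
# P054 / T2: `AData` = the uniform set of edges with its windows (output of section A, input of B)

Numbers: `b = β ^ L` the step of the scales, `k₀` the start of the tight window (length `Wg`),
`i₀` the start of the window of the hats (`[i₀, i₁]`, levels `b ^ k₀ * b ^ i`), `C` = the geometric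
factor (any number chosen in advance, depending on `n` only), `q` = density parameter,
`Par` = 580's inequalities (`β` large against everything else).
-/

namespace Vale.Agent.P054.T2.H794

open Finset MvPolynomial Module
open Vale.Agent.P054.T2.H307
open Vale.Agent.P054.T2.H580 (Par)
open Vale.Agent.P054.T2.H686 (Qf Crd)

variable {n : ℕ}

/-- constancy of the values `v (f, i)` for `i ∈ [i₀, i₁]` -/
def Cw (v : FI × ℕ → ℕ) (f : FI) (i₀ i₁ : ℕ) : Prop :=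
  ∀ i, i₀ ≤ i → i ≤ i₁ → v (f, i) = v (f, i₀)

/-- **the uniform set of edges, with the tight window and the window of the hats.** -/
structure AData (n k β C₁ L K₀ q C k₀ i₀ i₁ Wg : ℕ) (E' : Finset (Ed n ℝ)) (v : FI × ℕ → ℕ) :
    Prop where
  par : Par (NN n) k β C₁ L K₀ q (JA K₀).card
  /-- `β` beats any constant chosen before (the constants depend on `n, C, L, K₀, q` only) -/
  unif : IsUnif (cA n ℝ (β ^ L)) (JA K₀) β E' v
  ne : E'.Nonempty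
  adj : ∀ e ∈ E', e.1.1 0 ≠ e.2.1 0 ∧ Qf (e.1 - e.2) = 0
  /-- the tight window -/
  hk : k₀ + Wg ≤ K₀
  winF : Cw v FI.F k₀ (k₀ + Wg)
  winL1 : Cw v FI.L1 k₀ (k₀ + Wg)
  winL2 : Cw v FI.L2 k₀ (k₀ + Wg)
  tight : (2 * n + 1) - v (FI.F, k₀) = (n - v (FI.L1, k₀)) + (n - v (FI.L2, k₀))
  /-- the leaf dimensions are positive -/
  pos1 : v (FI.L1, k₀) < n
  pos2 : v (FI.L2, k₀) < n
  /-- the window of the hats -/
  winH1 : Cw v (FI.H1 k₀) i₀ i₁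
  winH2 : Cw v (FI.H2 k₀) i₀ i₁
  winV1 : Cw v (FI.V1 k₀) i₀ i₁
  winV2 : Cw v (FI.V2 k₀) i₀ i₁
  winT : Cw v (FI.T k₀) i₀ i₁
  winTV : Cw v (FI.TV k₀) i₀ i₁
  winTS : Cw v (FI.TS k₀) i₀ i₁
  winTR : Cw v (FI.TR k₀) i₀ i₁
  /-- geometric lengths -/
  geo : C * i₀ + C ≤ i₁
  long : C * i₁ + C ≤ Wg

namespace AData

variable {k β C₁ L K₀ q C k₀ i₀ i₁ Wg : ℕ} {E' : Finset (Ed n ℝ)} {v : FI × ℕ → ℕ}
  (h : AData n k β C₁ L K₀ q C k₀ i₀ i₁ Wg E' v)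

include h

theorem hb : 1 < β ^ L := h.par.b_gt_one

theorem hβ1 : 1 < β := h.par.beta_gt_one

theorem k₀_le : k₀ ≤ K₀ := (Nat.le_add_right _ _).trans h.hk

theorem i₁_le (hC : 1 ≤ C) : i₁ ≤ Wg := by
  have h1 := h.long
  nlinarith

theorem i₀_le (hC : 1 ≤ C) : i₀ ≤ i₁ := by
  have h1 := h.geo
  nlinarith

theorem i₁_le_K (hC : 1 ≤ C) : k₀ + i₁ ≤ K₀ :=
  (Nat.add_le_add_left (h.i₁_le hC) _).trans h.hk

theorem mono_fam : ∀ j ∈ JA K₀, ∀ A B : Finset (Ed n ℝ), A ⊆ B → B ⊆ E' → ∀ e ∈ A,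
    cA n ℝ (β ^ L) j B e ≤ cA n ℝ (β ^ L) j A e :=
  fun j _ A B hAB _ e _ => cA_mono _ j hAB e

theorem isF : IsFam (cA n ℝ (β ^ L)) (JA K₀) (fun i => (FI.F, i)) K₀ xF (fun _ => ())
    (restrictTotalDegree (Crd n) ℝ) 1 (β ^ L) := (isFam_F _ _).isFam

theorem isL1 : IsFam (cA n ℝ (β ^ L)) (JA K₀) (fun i => (FI.L1, i)) K₀ xL Prod.fst
    (restrictTotalDegree (Fin n) ℝ) 1 (β ^ L) := (isFam_L1 _ _).isFam

theorem isL2 : IsFam (cA n ℝ (β ^ L)) (JA K₀) (fun i => (FI.L2, i)) K₀ xL Prod.snd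
    (restrictTotalDegree (Fin n) ℝ) 1 (β ^ L) := (isFam_L2 _ _).isFam

end AData

/-- shape of the statements of section B about `AData`: `C₀` depends on `n` only; the statement
holds for all windows with geometric factor `C ≥ C₀`, all `L, K₀, q ≥ q₀`, and `β ≥ β₀`. -/
def ForAData (n : ℕ) (Φ : (k β C₁ L K₀ q C k₀ i₀ i₁ Wg : ℕ) → Finset (Ed n ℝ) → (FI × ℕ → ℕ) →
    Prop) : Prop :=
  ∃ C₀ q₀ : ℕ, ∀ C, C₀ ≤ C → ∀ q, q₀ ≤ q → ∀ L K₀ : ℕ, ∃ β₀ : ℕ, ∀ β, β₀ ≤ β →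
    ∀ (k C₁ k₀ i₀ i₁ Wg : ℕ) (E' : Finset (Ed n ℝ)) (v : FI × ℕ → ℕ),
      AData n k β C₁ L K₀ q C k₀ i₀ i₁ Wg E' v → Φ k β C₁ L K₀ q C k₀ i₀ i₁ Wg E' v

end Vale.Agent.P054.T2.H794
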