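import Vale.Agent.P054.T2.H794.SecBHelp
import Vale.Agent.P054.T2.H82.EdgeMk
import Vale.Agent.P054.T2.H83.GseamF
import Vale.Agent.P054.T2.H94.LeafS
import Vale.Agent.P054.T2.H580.Inst

set_option autoImplicit false
set_option linter.all false

/-!
# P054 / T2: section B from its leaves
-/

namespace Vale.Agent.P054.T2.H794

open Finset MvPolynomial Module
open Vale.Agent.P054.T2.SecC
open Vale.Agent.P054.T2.H307 (FI Ed xF xL xH1 xH2 xT wB van fib mem_van)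
open Vale.Agent.P054.T2.H580 (Vw kap Vw_mono US)
open Vale.Agent.P054.T2.H686
open Vale.Agent.P054.T2.H930 (ZData germ grad Pt edgePt hatPt sysZ sysZ_cases germ_le_comap)
open Vale.Agent.P054.T2.H94 (LeafData side₁ side₂ restrictZ mkLeaf₁ mkLeaf₂)
open Vale.Agent.P054.T2.H441 (StabS js jr chg cD)
open Vale.Agent.P054.T2.H588 (kP mat)
open Vale.Agent.P054.T2.H83 (resS swp_mono edgeB_res gseam)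

variable {n : ℕ}

/-- **[VERT]** at an edge: the vertical fields of `EdgeB` -/
def VertBS (n : ℕ) : Prop := ∀ (P : Finset (E n)) (B : E n ≃ₗᵢ[ℝ] E n) (β : ℕ), Gm P B →
  ∀ (E0 E1 E2 A : Finset (ZZ n × ZZ n)) (W D N c₀ c₁ c₂ σ₁ σ₂ v₁ v₂ : ℕ)
    (Z : ZData ℝ n E0 E1 E2 (wB W) N c₀ c₁ c₂ σ₁ σ₂) (S₁ : Side n A W D σ₁ v₂)
    (S₂ : Side n (swp A) W D σ₂ v₁), A ⊆ E2 → c₁ + v₁ = 2 * (n + 1) → c₂ + v₂ = 2 * (n + 1) →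
    c₀ + (σ₁ + σ₂) = 2 * n + 1 → ∀ e ∈ A, e ∈ Ez P B β →
    (∀ i, H192.thS e.1 (Z.F i) ∈ germ (H192.hpt e.1 e.2) (S₁.F e.1)) →
    (∀ i, H192.thR e.2 (Z.F i) ∈ germ (H192.hpt e.2 e.1) (S₂.F e.2)) →
    (∀ (D : Derivation (kP P) ℝ ℝ) (h : MvPolynomial (ZI n) ℝ),
      rename (js n) (chg (mat B) h) ∈ germ (edgePt e.1 e.2) Z.F →
      rename (js n) (chg (mat B) (cD D h)) ∈ germ (edgePt e.1 e.2) Z.F) →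
    (∀ (D : Derivation (kP P) ℝ ℝ) (h : MvPolynomial (ZI n) ℝ),
      rename (jr n) (chg (mat B) h) ∈ germ (edgePt e.1 e.2) Z.F →
      rename (jr n) (chg (mat B) (cD D h)) ∈ germ (edgePt e.1 e.2) Z.F) →
    H82.VertB S₁ S₂ e

/-- the counting of the exceptional sets -/
theorem card_budget {ι : Type*} [DecidableEq ι] {E' E2 Y₁ Y₂ Y₃ Y₄ Y₅ : Finset ι}
    (h : 4 * (E' \ E2).card ≤ E'.card) (h1 : 64 * Y₁.card ≤ E'.card)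
    (h2 : 64 * Y₂.card ≤ E'.card) (h3 : 64 * Y₃.card ≤ E'.card) (h4 : 64 * Y₄.card ≤ E'.card)
    (h5 : 64 * Y₅.card ≤ 3 * E'.card) :
    E'.card ≤ 2 * ((E2 \ (Y₁ ∪ Y₂ ∪ Y₃ ∪ Y₄)) \ Y₅).card := by
  have k1 : E' ⊆ (E' \ E2) ∪ (Y₁ ∪ Y₂ ∪ Y₃ ∪ Y₄) ∪ Y₅ ∪ ((E2 \ (Y₁ ∪ Y₂ ∪ Y₃ ∪ Y₄)) \ Y₅) := by
    intro x hx
    simp only [mem_union, mem_sdiff]
    tauto
  have k2 := card_le_card k1
  have k3 := card_union_le ((E' \ E2) ∪ (Y₁ ∪ Y₂ ∪ Y₃ ∪ Y₄) ∪ Y₅)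
    ((E2 \ (Y₁ ∪ Y₂ ∪ Y₃ ∪ Y₄)) \ Y₅)
  have k4 := card_union_le ((E' \ E2) ∪ (Y₁ ∪ Y₂ ∪ Y₃ ∪ Y₄)) Y₅
  have k5 := card_union_le (E' \ E2) (Y₁ ∪ Y₂ ∪ Y₃ ∪ Y₄)
  have k6 := card_union_le (Y₁ ∪ Y₂ ∪ Y₃) Y₄
  have k7 := card_union_le (Y₁ ∪ Y₂) Y₃
  have k8 := card_union_le Y₁ Y₂
  omega

/-- **section B**: one uniform set of edges -/
theorem secB_core (hn : 1 ≤ n) (hV : VertBS n) {k β C₁ L K₀ q C k₀ i₀ i₁ Wg : ℕ}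
    {E' : Finset (Ed n ℝ)} {v : FI × ℕ → ℕ} (AD : AData n k β C₁ L K₀ q C k₀ i₀ i₁ Wg E' v)
    (hb2 : 2 ≤ β ^ L)
    {E1 E2 : Finset (ZZ n × ZZ n)} {c₀ c₁ c₂ σ₁ σ₂ v₁ v₂ : ℕ}
    (Z : ZData ℝ n E' E1 E2 (wB ((β ^ L) ^ k₀)) ((β ^ L) ^ (k₀ + i₀)) c₀ c₁ c₂ σ₁ σ₂)
    (ZZP : ZP (β ^ L) k₀ i₀ E' v Z) (hc₁ : c₁ + v₁ = 2 * (n + 1)) (hc₂ : c₂ + v₂ = 2 * (n + 1))
    (hE2 : 4 * (E' \ E2).card ≤ E'.card)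
    {f₁ : ZZ n → Fin (n - σ₁) → MvPolynomial (Fin n) ℝ}
    (hdeg₁ : ∀ s i, (f₁ s i).totalDegree ≤ (β ^ L) ^ k₀)
    (h0₁ : ∀ e ∈ E', ∀ i, eval (mu e.1 e.2) (f₁ e.1 i) = 0)
    (hind₁ : ∀ e ∈ E', LinearIndependent ℝ (fun i => grad (mu e.1 e.2) (f₁ e.1 i)))
    {Y₁ : Finset (ZZ n × ZZ n)} (hY₁ : 64 * Y₁.card ≤ E'.card)
    (hg₁ : ∀ e ∈ E', e ∉ Y₁ → ∀ G : MvPolynomial (Fin n) ℝ,
      G.totalDegree ≤ (β ^ L) ^ (k₀ + i₀) →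
      (∀ e' ∈ E', e'.1 = e.1 → eval (mu e'.1 e'.2) G = 0) → G ∈ germ (mu e.1 e.2) (f₁ e.1))
    {f₂ : ZZ n → Fin (n - σ₂) → MvPolynomial (Fin n) ℝ}
    (hdeg₂ : ∀ s i, (f₂ s i).totalDegree ≤ (β ^ L) ^ k₀)
    (h0₂ : ∀ e ∈ E', ∀ i, eval (mu e.1 e.2) (f₂ e.2 i) = 0)
    (hind₂ : ∀ e ∈ E', LinearIndependent ℝ (fun i => grad (mu e.1 e.2) (f₂ e.2 i)))
    {Y₂ : Finset (ZZ n × ZZ n)} (hY₂ : 64 * Y₂.card ≤ E'.card)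
    (hg₂ : ∀ e ∈ E', e ∉ Y₂ → ∀ G : MvPolynomial (Fin n) ℝ,
      G.totalDegree ≤ (β ^ L) ^ (k₀ + i₀) →
      (∀ e' ∈ E', e'.2 = e.2 → eval (mu e'.1 e'.2) G = 0) → G ∈ germ (mu e.1 e.2) (f₂ e.2))
    {t : ℕ} {P : Finset (E n)} {B : E n ≃ₗᵢ[ℝ] E n} {G : ℕ → ℕ} (hB : Gm P B)
    (ht : (dists P).card ≤ t) (hIso : IsoB n P G) (hE : E' ⊆ Ez P B β)
    (hcard : (Ez P B β).card ≤ β ^ L * E'.card)
    {Y₃ : Finset (ZZ n × ZZ n)} (hY₃ : 64 * Y₃.card ≤ E'.card)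
    (hst_s : ∀ e ∈ E2, e ∉ Y₃ → ∀ (D : Derivation (kP P) ℝ ℝ) (h : MvPolynomial (ZI n) ℝ),
      rename (js n) (chg (mat B) h) ∈ germ (edgePt e.1 e.2) Z.F →
      rename (js n) (chg (mat B) (cD D h)) ∈ germ (edgePt e.1 e.2) Z.F)
    {Y₄ : Finset (ZZ n × ZZ n)} (hY₄ : 64 * Y₄.card ≤ E'.card)
    (hst_r : ∀ e ∈ E2, e ∉ Y₄ → ∀ (D : Derivation (kP P) ℝ ℝ) (h : MvPolynomial (ZI n) ℝ),
      rename (jr n) (chg (mat B) h) ∈ germ (edgePt e.1 e.2) Z.F →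
      rename (jr n) (chg (mat B) (cD D h)) ∈ germ (edgePt e.1 e.2) Z.F)
    (hG1 : ∀ Bd ⊆ E2, (∀ e ∈ Bd, ∃ φ ∈ Vw ℝ (wB ((β ^ L) ^ k₀)) (2 * (β ^ L) ^ k₀),
      (∀ e' ∈ Bd, germ (edgePt e'.1 e'.2) Z.F = germ (edgePt e.1 e.2) Z.F →
        eval (xH1 e') φ = 0) ∧
      rename (H930.j1 n) φ ∉ germ (edgePt e.1 e.2) Z.F) → 64 * Bd.card ≤ E'.card)
    (hG2 : ∀ Bd ⊆ E2, (∀ e ∈ Bd, ∃ φ ∈ Vw ℝ (wB ((β ^ L) ^ k₀)) (2 * (β ^ L) ^ k₀),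
      (∀ e' ∈ Bd, germ (edgePt e'.1 e'.2) Z.F = germ (edgePt e.1 e.2) Z.F →
        eval (xH2 e') φ = 0) ∧
      rename (H930.j2 n) φ ∉ germ (edgePt e.1 e.2) Z.F) → 64 * Bd.card ≤ E'.card) :
    ABMain n P B β (β ^ L) 2 i₀ (4 * (n + 1)) (H819.Cx n) t ((β ^ L) ^ k₀) G := by
  classical
  -- numbers
  have hW : 1 ≤ (β ^ L) ^ k₀ := Nat.one_le_pow _ _ (by omega)
  have hD : 1 ≤ (β ^ L) ^ i₀ := Nat.one_le_pow _ _ (by omega)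
  have hN : (β ^ L) ^ (k₀ + i₀) ≤ (β ^ L) ^ i₀ * (β ^ L) ^ k₀ := by
    rw [pow_add, mul_comm]
  have hp1 := AD.pos1
  have hp2 := AD.pos2
  have hti := AD.tight
  have hz0 := ZZP.hc₀
  have hzs1 := ZZP.hσ₁
  have hzs2 := ZZP.hσ₂
  have hσ₁ : σ₁ ≤ n := by omega
  have hσ₂ : σ₂ ≤ n := by omega
  have hσ₁1 : 1 ≤ σ₁ := by omega
  have hσ₂1 : 1 ≤ σ₂ := by omega
  have hc₀ : c₀ + (σ₁ + σ₂) = 2 * n + 1 := by omega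
  have hv₁ : v₁ ≤ 2 * (n + 1) := by omega
  have hv₂ : v₂ ≤ 2 * (n + 1) := by omega
  have hcc₂ : c₂ = 2 * (n + 1) - v₂ := by omega
  have hcc₁ : c₁ = 2 * (n + 1) - v₁ := by omega
  -- the set A3
  set A3 : Finset (ZZ n × ZZ n) := E2 \ (Y₁ ∪ Y₂ ∪ Y₃ ∪ Y₄) with hA3
  have hA3' : A3 ⊆ E2 := sdiff_subset
  have hE2' : E2 ⊆ E' := fun e he => Z.mem0 he
  have hA3Y : ∀ e ∈ A3, e ∉ Y₁ ∧ e ∉ Y₂ ∧ e ∉ Y₃ ∧ e ∉ Y₄ := by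
    intro e he
    rw [hA3, mem_sdiff] at he
    simp only [mem_union, not_or] at he
    exact ⟨he.2.1.1.1, he.2.1.1.2, he.2.1.2, he.2.2⟩
  let Z3 := restrictZ Z hA3'
  let L₁ : LeafData E' A3 ((β ^ L) ^ k₀) ((β ^ L) ^ (k₀ + i₀)) σ₁ :=
    mkLeaf₁ f₁ hdeg₁ h0₁ hind₁ hg₁ fun e he => ⟨hE2' (hA3' he), (hA3Y e he).1⟩
  let L₂ : LeafData (swp E') (swp A3) ((β ^ L) ^ k₀) ((β ^ L) ^ (k₀ + i₀)) σ₂ :=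
    mkLeaf₂ f₂ hdeg₂ h0₂ hind₂ hg₂ fun e he => ⟨hE2' (hA3' he), (hA3Y e he).2.1⟩
  let S₁ : Side n A3 ((β ^ L) ^ k₀) ((β ^ L) ^ i₀) σ₁ v₂ :=
    side₁ Z3 hcc₂ L₁ (Finset.Subset.refl _) hW hD hN hσ₁ hσ₁1 hv₂
  let S₂ : Side n (swp A3) ((β ^ L) ^ k₀) ((β ^ L) ^ i₀) σ₂ v₁ :=
    side₂ Z3 hcc₁ L₂ (Finset.Subset.refl _) hW hD hN hσ₂ hσ₂1 hv₁
  have hK : ∀ e ∈ A3, (∀ F : MvPolynomial (ZI n) ℝ, rename (fun x => Sum.inr (Sum.inr x)) F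
      ∈ germ (edgePt e.1 e.2) Z.F ↔ F ∈ S₁.Pr e) ∧
    (∀ F : MvPolynomial (ZI n) ℝ, rename (fun x => Sum.inr (Sum.inl x)) F
      ∈ germ (edgePt e.1 e.2) Z.F ↔ F ∈ S₂.Pr e.swap) := fun e he =>
    H192.kp_z Z3 hcc₂ hcc₁ L₁ L₂ (Finset.Subset.refl _) hW hD hN hσ₁ hσ₁1 hσ₂ hσ₂1 hv₁ hv₂ hc₀ he
  have hKc : ∀ e ∈ A3, (∀ i, H192.thS e.1 (Z.F i) ∈ germ (H192.hpt e.1 e.2) (S₁.F e.1)) ∧
    (∀ i, H192.thR e.2 (Z.F i) ∈ germ (H192.hpt e.2 e.1) (S₂.F e.2)) := fun e he =>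
    H192.kp_z_core Z3 hcc₂ hcc₁ L₁ L₂ (Finset.Subset.refl _) hW hD hN hσ₁ hσ₁1 hσ₂ hσ₂1 hv₁ hv₂ he
  obtain ⟨Y₅, hY₅A, hY₅, hgs⟩ := gseam S₁ S₂ Z3 (Finset.Subset.refl _) (fun e he => (hK e he).1)
    (fun e he => (hK e he).2) (fun e he => (hKc e he).1)
    (fun Bd hBd h => hG1 Bd (hBd.trans hA3') h) (fun Bd hBd h => hG2 Bd (hBd.trans hA3') h)
  have hEg : ∀ e ∈ A3, e ∉ Y₅ → EdgeB S₁ S₂ e := fun e he he5 =>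
    H82.edgeB_mk hB Z3 S₁ S₂ he he (hE (hE2' (hA3' he))) (hK e he).1 (hK e he).2
      (hst_s e (hA3' he) (hA3Y e he).2.2.1) (hst_r e (hA3' he) (hA3Y e he).2.2.2)
      (hgs e he he5)
      (hV P B β hB E' E1 A3 A3 _ _ _ c₀ c₁ c₂ σ₁ σ₂ v₁ v₂ Z3 S₁ S₂ (Finset.Subset.refl _) hc₁ hc₂ hc₀
        e he (hE (hE2' (hA3' he))) (hKc e he).1 (hKc e he).2
        (hst_s e (hA3' he) (hA3Y e he).2.2.1) (hst_r e (hA3' he) (hA3Y e he).2.2.2))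
  have hsub : A3 \ Y₅ ⊆ A3 := sdiff_subset
  have hbud := card_budget hE2 hY₁ hY₂ hY₃ hY₄ hY₅
  refine H82.abMain_of_edgeB (W := (β ^ L) ^ k₀) (D := (β ^ L) ^ i₀)
    (restrictZ Z (hsub.trans hA3')) (resS S₁ hsub) (resS S₂ (swp_mono hsub))
    (fun e he => (hK e (hsub he)).1) (fun e he => (hK e (hsub he)).2)
    (fun e he => edgeB_res hsub (hEg e (hsub he) (mem_sdiff.1 he).2)) hIso ht
    (fun e he => hE (hE2' (hA3' (hsub he)))) ?_ le_rfl le_rfl ?_ ?_ ?_ hc₁ hc₂ hc₀.le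
  · calc (Ez P B β).card ≤ β ^ L * E'.card := hcard
      _ ≤ β ^ L * (2 * (A3 \ Y₅).card) := Nat.mul_le_mul_left _ hbud
      _ = (β ^ L * 2) * (A3 \ Y₅).card := by ring
      _ ≤ (β ^ L * β ^ L) * (A3 \ Y₅).card :=
        Nat.mul_le_mul_right _ (Nat.mul_le_mul_left _ hb2)
      _ = (β ^ L) ^ 2 * (A3 \ Y₅).card := by rw [sq]
  · intro i
    have h1 := (mem_van.1 (ZZP.f_van i)).1
    have h2 := (mem_restrictTotalDegree _ _ _).1 h1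
    refine h2.trans (Nat.pow_le_pow_right (by omega) ?_)
    refine H580.kap_le_of_lt (k₀ + 1) (fun j => v (FI.F, j)) ?_ _ k₀ (by rw [← hz0]; exact i.2)
    have U : US n ℝ k β C₁ L K₀ q E' v := ⟨AD.par, AD.unif, AD.ne⟩
    intro a l hal hl
    exact U.unif.fam_mono U.ne U.par.beta_gt_one (H580.isFilt_total (k := ℝ)).mono
      U.par.b_gt_one.le U.famF hal (by have := AD.k₀_le; omega)
  · exact fun i => Vw_mono _ hN (Z.h_mem i)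
  · exact fun i => Vw_mono _ hN (Z.h'_mem i)

/-- **section B** -/
theorem secB_of (hn : 1 ≤ n) (hZP : ZPackS n) (hL : LeafS n) (hSt : StabS n) (hG : GStarS n)
    (hV : VertBS n) : SecB n := by
  have h1 : ForAData n _ := hZP
  have h2 : ForAData n _ := hL
  have h3 : ForAData n _ := hSt
  have h4 : ForAData n _ := hG
  refine ((h1.and h2).and (h3.and h4)).imp 0 0 (fun _ _ _ _ => 0) ?_
  rintro k β C₁ L K₀ q C k₀ i₀ i₁ Wg E' v - - - AD ⟨⟨hz, hl⟩, hs, hg⟩ t P B G hB ht hIso hE hcard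
  obtain ⟨E1, E2, c₀, c₁, c₂, σ₁, σ₂, v₁, v₂, Z, ZZP, hc₁, hc₂, hE2⟩ := hz
  have hzs1 := ZZP.hσ₁
  have hzs2 := ZZP.hσ₂
  subst hzs1
  subst hzs2
  have hd : E'.card ≤ 2 * E2.card := by
    classical
    have k1 : E' ⊆ (E' \ E2) ∪ E2 := fun x hx => by
      simp only [mem_union, mem_sdiff]
      tauto
    have k2 := (card_le_card k1).trans (card_union_le _ _)
    omega
  obtain ⟨⟨f₁, a1, a2, a3, Y₁, -, a4, a5⟩, ⟨f₂, b1, b2, b3, Y₂, -, b4, b5⟩⟩ := hl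
  obtain ⟨⟨Y₃, -, c3, c4⟩, ⟨Y₄, -, d3, d4⟩⟩ := hs E1 E2 c₀ c₁ c₂ _ _ v₁ v₂ Z ZZP hc₁ hc₂ hd P B β
    hB hn hE
  obtain ⟨g1, g2⟩ := hg E1 E2 c₀ c₁ c₂ _ _ v₁ v₂ Z ZZP hc₁ hc₂ hd
  exact secB_core hn hV AD AD.hb Z ZZP hc₁ hc₂ hE2 a1 a2 a3 a4 a5 b1 b2 b3 b4 b5 hB ht hIso hE
    hcard c3 c4 d3 d4 g1 g2

end Vale.Agent.P054.T2.H794
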