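import Vale.Agent.P054.T2.H794.SecBDef
import Vale.Agent.P054.T2.H82.ABEdge
import Vale.Agent.P054.T2.H192.KSideZ
import Vale.Agent.P054.T2.H94.LeafUni
import Vale.Agent.P054.T2.H441.StabEz
import Vale.Agent.P054.T2.H588.EdgeEz
import Vale.Agent.P054.T2.H83.GseamZ
import Vale.Agent.P054.T2.H701.GStarZ

set_option autoImplicit false
set_option linter.all false

/-!
# P054 / T2: section B, small lemmas about `Z` and the two sides
-/

namespace Vale.Agent.P054.T2.H794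

open Finset MvPolynomial Module
open Vale.Agent.P054.T2.SecC
open Vale.Agent.P054.T2.H307 (FI Ed xF xL xH1 xH2 xT wB van fib)
open Vale.Agent.P054.T2.H580 (Vw kap Vw_mono)
open Vale.Agent.P054.T2.H686
open Vale.Agent.P054.T2.H930 (ZData germ grad Pt edgePt hatPt sysZ sysZ_cases germ_le_comap)

variable {n : ℕ} {E0 E1 E2 A : Finset (ZZ n × ZZ n)} {W D N c₀ c₁ c₂ σ₁ σ₂ v₁ v₂ : ℕ}

/-- the equations of `Z⁺` have level `N` -/
theorem ZF_level (Z : ZData ℝ n E0 E1 E2 (wB W) N c₀ c₁ c₂ σ₁ σ₂) (i) :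
    Z.F i ∈ Vw ℝ (wB W) N := by
  have hF : Z.F i = sysZ Z.f Z.h Z.h' i := rfl
  rw [hF]
  rcases sysZ_cases Z.f Z.h Z.h' i with ⟨j, hj⟩ | ⟨j, hj⟩ | ⟨j, hj⟩
  · have h1 : (rename Sum.inl (Z.f j) : MvPolynomial (Crd n ⊕ (Pt n ⊕ Pt n)) ℝ) =
        rename (H930.j1 n) (rename Sum.inl (Z.f j) : MvPolynomial (Crd n ⊕ Pt n) ℝ) := by
      rw [rename_rename]; rfl
    rw [hj, h1]
    exact H701.rename_mem_Vw (H930.j1 n) (wB W) (wB W) (fun x => by rcases x with x | x <;> rfl)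
      (Z.f_mem j)
  · rw [hj]
    exact H701.rename_mem_Vw (H930.j1 n) (wB W) (wB W) (fun x => by rcases x with x | x <;> rfl)
      (Z.h_mem j)
  · rw [hj]
    exact H701.rename_mem_Vw (H930.j2 n) (wB W) (wB W) (fun x => by rcases x with x | x <;> rfl)
      (Z.h'_mem j)

/-- the point of the second hat -/
theorem xH2_eq {e : ZZ n × ZZ n} (h0 : e.1.1 0 ≠ e.2.1 0) (hq : Qf (e.1 - e.2) = 0) :
    xH2 e = hatPt e.2 (mu e.2 e.1) := by
  rw [H94.hatPt_eq_hatr h0 hq]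
  rfl

/-- the condition of `bd_ste` -/
theorem u_mem {c : ℕ} {F : Fin c → MvPolynomial (Crd n ⊕ (Pt n ⊕ Pt n)) ℝ}
    {v : ℕ} {σ : ℕ} (S₁ : Side n A W D σ v) {e : ZZ n × ZZ n}
    (hF : ∀ i, H192.thS e.1 (F i) ∈ germ (H192.hpt e.1 e.2) (S₁.F e.1))
    (G : MvPolynomial (Fin n) ℝ)
    (hG : rename (fun i => (Sum.inl (Sum.inl i) : Crd n ⊕ (Pt n ⊕ Pt n))) G ∈
      germ (edgePt e.1 e.2) F) : rename (R := ℝ) Sum.inl G ∈ S₁.P e := by
  have h1 := germ_le_comap (H192.thS e.1) (H192.eval_thS e.1 e.2) hF hG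
  have h2 : H192.thS e.1 (rename (fun i => (Sum.inl (Sum.inl i) : Crd n ⊕ (Pt n ⊕ Pt n))) G) =
      rename Sum.inl G := by
    have h3 : (rename (fun i => (Sum.inl (Sum.inl i) : Crd n ⊕ (Pt n ⊕ Pt n))) G) =
        rename Sum.inl (rename (fun i => (Sum.inl i : Crd n)) G) := by
      rw [rename_rename]; rfl
    rw [h3, H192.thS_rename_inl]
    congr 1
    rw [← AlgHom.comp_apply]
    have h4 : (H686.pull e.1).comp (rename (fun i => (Sum.inl i : Crd n))) =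
        AlgHom.id ℝ (MvPolynomial (Fin n) ℝ) := by
      ext i
      rw [AlgHom.comp_apply, rename_X, H94.pull_X_inl]
      rfl
    rw [h4]
    rfl
  have h5 : H192.thS e.1 (rename (fun i => (Sum.inl (Sum.inl i) : Crd n ⊕ (Pt n ⊕ Pt n))) G) ∈
      germ (H192.hpt e.1 e.2) (S₁.F e.1) := h1
  rw [h2] at h5
  exact h5

end Vale.Agent.P054.T2.H794
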