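import Vale.Agent.P054.T2.H441.BD
import Vale.Agent.P054.T2.H455.SAD4

set_option autoImplicit false
set_option linter.all false

/-!
# P054 / T2: the leaf [STAB] from `ZData` alone (455's (S-AD))
-/

namespace Vale.Agent.P054.T2.H794

open Finset MvPolynomial Module
open Vale.Agent.P054.T2.SecC
open Vale.Agent.P054.T2.H686
open Vale.Agent.P054.T2.H930 (ZData germ edgePt)
open Vale.Agent.P054.T2.H441 (StabS js jr chg cD Ez_pts)

/-- **[STAB]** -/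
theorem stabS (n : ℕ) : StabS n := by
  refine ⟨0, 0, fun C _ q _ L K₀ => ⟨0, fun β _ k C₁ k₀ i₀ i₁ Wg E' v AD => ?_⟩⟩
  intro E1 E2 c₀ c₁ c₂ σ₁ σ₂ v₁ v₂ Z hZ hc₁ hc₂ hE2 P B C' hB hn hE
  refine ⟨⟨∅, Finset.empty_subset _, by simp, fun e he _ D h hh => ?_⟩,
    ⟨∅, Finset.empty_subset _, by simp, fun e he _ D h hh => ?_⟩⟩
  · refine H455.edge_stab_s Z (W := (β ^ L) ^ k₀) (fun y => rfl) he B (fun e' he' => ?_)
      (Pr := (germ (edgePt e.1 e.2) Z.F).comap (rename (R := ℝ) (js n))) (fun G => Iff.rfl) D h hh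
    obtain ⟨s, r, hs, -, ks, -⟩ := Ez_pts (hE (Z.sub he'))
    exact ⟨s, hs, ks⟩
  · refine H455.edge_stab_r Z (W := (β ^ L) ^ k₀) (fun y => rfl) he B (fun e' he' => ?_)
      (Pr := (germ (edgePt e.1 e.2) Z.F).comap (rename (R := ℝ) (jr n))) (fun G => Iff.rfl) D h hh
    obtain ⟨s, r, -, hr, -, kr⟩ := Ez_pts (hE (Z.sub he'))
    exact ⟨r, hr, kr⟩

end Vale.Agent.P054.T2.H794
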